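import Vale.Agent.P254.FewFacets.Main
import Vale.Agent.P254.FewFacets.Vertices.Exact

/-!
The isotropic constant of a polytope with few facets or few vertices against that of the simplex,
with the exact strong inequality for hulls of `n + 2` points.
-/

noncomputable section

open Set MeasureTheory

namespace Vale.Agent.Results.P254.FewFacets

open Vale.Agent.P254

theorem result : ∀ n : ℕ, 1 ≤ n → ∀ (N : ℕ) (B : (Fin n → ℝ) ≃ᵃ[ℝ] (Fin n → ℝ)),
    (∀ (a : Fin N → Fin n → ℝ) (β : Fin N → ℝ),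
      Bornology.IsBounded {x : Fin n → ℝ | ∀ i, 0 ≤ (∑ j, a i j * x j) + β i} →
      (∃ x : Fin n → ℝ, ∀ i, 0 < (∑ j, a i j * x j) + β i) →
      n + 1 ≤ N ∧ isoConst {x : Fin n → ℝ | ∀ i, 0 ≤ (∑ j, a i j * x j) + β i}
        ≤ (2 * Real.pi * Real.exp 1) ^ (((N : ℝ) - n - 1) / (2 * n))
          * isoConst (B '' stdSimplexBody n)) ∧
    (∀ v : Fin N → Fin n → ℝ, (interior (convexHull ℝ (Set.range v))).Nonempty →
      n + 1 ≤ N ∧ isoConst (convexHull ℝ (Set.range v))
        ≤ ((2 * (N : ℝ) - n - 1) / ((n : ℝ) + 1)) ^ (((n : ℝ) + 1) / (2 * n))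
          * isoConst (B '' stdSimplexBody n)) ∧
    (∀ v : Fin (n + 2) → Fin n → ℝ, (interior (convexHull ℝ (Set.range v))).Nonempty →
      isoConst (convexHull ℝ (Set.range v)) ≤ isoConst (B '' stdSimplexBody n) ∧
        (isoConst (convexHull ℝ (Set.range v)) = isoConst (B '' stdSimplexBody n) →
          ∃ A : (Fin n → ℝ) ≃ᵃ[ℝ] (Fin n → ℝ),
            convexHull ℝ (Set.range v) = A '' stdSimplexBody n)) := by
  intro n hn N B
  have hB : isoConst (B '' stdSimplexBody n) = isoConst (stdSimplexBody n) := by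
    refine isoConst_affine B ?_ ?_
    · rw [stdSimplexBody_eq]; exact solidSimplex_compact n 1
    · rw [(covMatrix_stdSimplexBody n).2]; positivity
  rw [hB]
  exact ⟨fun a β hb hne => Vale.Agent.P254.FewFacets.few_facets_bound hn a β hb hne,
    fun v hv => Vale.Agent.P254.FewFacets.Vertices.few_vertices_bound v hv,
    fun v hv => Vale.Agent.P254.FewFacets.Vertices.few_exact_simplex v hn hv⟩

end Vale.Agent.Results.P254.FewFacets
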