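import Vale.Agent.P254.FewSlabs.Main
import Vale.Agent.P254.FewSlabs.Peaked

/-!
The strong isotropic constant inequality for symmetric convex bodies filling a large enough volume
fraction of a symmetric polytope with few pairs of facets.
-/

noncomputable section

open Set MeasureTheory

namespace Vale.Agent.Results.P254.FewSlabs

open Vale.Agent.P254

theorem result : ∀ n : ℕ, 2 ≤ n → ∀ (N : ℕ) (a : Fin N → Fin n → ℝ),
    Bornology.IsBounded {x : Fin n → ℝ | ∀ i, |∑ j, a i j * x j| ≤ 1} →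
    ∀ K : Set (Fin n → ℝ), IsCompact K → Convex ℝ K → (∀ x ∈ K, -x ∈ K) →
      K ⊆ {x : Fin n → ℝ | ∀ i, |∑ j, a i j * x j| ≤ 1} →
    ∀ t : ℝ, 0 < t →
      t ^ n * (volume {x : Fin n → ℝ | ∀ i, |∑ j, a i j * x j| ≤ 1}).toReal ≤ (volume K).toReal →
      isoConst K ≤ Real.sqrt ((N : ℝ) / (12 * n)) / t ∧
        ((20 * (N : ℝ) ≤ 23 * t ^ 2 * n ∨ (16 ≤ n ∧ 2 * (N : ℝ) ≤ 3 * t ^ 2 * n) ∨
            (80 ≤ n ∧ 5 * (N : ℝ) ≤ 8 * t ^ 2 * n)) →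
          ∀ B : (Fin n → ℝ) ≃ᵃ[ℝ] (Fin n → ℝ), isoConst K < isoConst (B '' stdSimplexBody n)) := by
  intro n hn N a hb K hK hconv hsym hsub t ht hfrac
  have h := Vale.Agent.P254.FewSlabs.slabs_bound
    (Vale.Agent.P254.FewSlabs.vaaler_of_peaked Vale.Agent.P254.FewSlabs.peaked)
    (show 0 < n by omega) a hb hK hconv hsym hsub ht hfrac
  have ht2 : 0 < t ^ 2 := pow_pos ht 2
  refine ⟨h.1, fun hc => h.2 (Vale.Agent.P254.FewSlabs.crit_of_few (by positivity) hn ?_)⟩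
  have e : ∀ c d : ℝ, c * (N : ℝ) ≤ d * t ^ 2 * n → c * ((N : ℝ) / t ^ 2) ≤ d * n := fun c d hcd => by
    rw [← mul_div_assoc, div_le_iff₀ ht2]
    linarith
  rcases hc with h1 | ⟨h0, h1⟩ | ⟨h0, h1⟩
  · exact Or.inl (e 20 23 h1)
  · exact Or.inr (Or.inl ⟨h0, e 2 3 h1⟩)
  · exact Or.inr (Or.inr ⟨h0, e 5 8 h1⟩)

end Vale.Agent.Results.P254.FewSlabs
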