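import Vale.Agent.P254.LpSub.General
import Vale.Agent.P254.LpSub.GaussMoment
import Vale.Agent.P254.LpSub.LowMoment
import Vale.Agent.P254.LpSub.HighMoment
import Vale.Agent.P254.LpSub.VolumeLower
import Vale.Agent.P254.LpSub.Numeric
import Vale.Agent.P248.LpMahler.Lewis
import Vale.Agent.P254.LqQuot.General
import Vale.Agent.P254.LqQuot.MomentLow
import Vale.Agent.P254.LqQuot.FourthMoment
import Vale.Agent.P254.LqQuot.PolarVolume
import Vale.Agent.P254.LqQuot.Numeric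

/-!
The strong isotropic constant inequality in high dimension for the unit balls of all finite
dimensional subspaces of `L_p`, `1 ≤ p ≤ 10`, and for their polars when `6/5 ≤ p ≤ 4`.
-/

noncomputable section

open MeasureTheory Set

namespace Vale.Agent.Results.P254.LpSubspacesQuotients

open Vale.Agent.P254

theorem result : ∀ n : ℕ, 200 ≤ n → ∀ (Ω : Type) [MeasurableSpace Ω] (μ : Measure Ω)
    (f : Fin n → Ω → ℝ) (p : ℝ), 1 ≤ p → p ≤ 10 → (∀ j, MemLp (f j) (ENNReal.ofReal p) μ) →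
    Bornology.IsBounded {x : Fin n → ℝ | ∫ ω, |∑ j, x j * f j ω| ^ p ∂μ ≤ 1} →
      (isoConst {x : Fin n → ℝ | ∫ ω, |∑ j, x j * f j ω| ^ p ∂μ ≤ 1} ≤ Real.sqrt (2 / 15) ∧
        ∀ B : (Fin n → ℝ) ≃ᵃ[ℝ] (Fin n → ℝ),
          isoConst {x : Fin n → ℝ | ∫ ω, |∑ j, x j * f j ω| ^ p ∂μ ≤ 1}
            < isoConst (B '' stdSimplexBody n)) ∧
      (6 / 5 ≤ p → p ≤ 4 →
        isoConst (Vale.Agent.P248.polarBody
            {x : Fin n → ℝ | ∫ ω, |∑ j, x j * f j ω| ^ p ∂μ ≤ 1}) ≤ Real.sqrt (2 / 15) ∧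
        ∀ B : (Fin n → ℝ) ≃ᵃ[ℝ] (Fin n → ℝ),
          isoConst (Vale.Agent.P248.polarBody
              {x : Fin n → ℝ | ∫ ω, |∑ j, x j * f j ω| ^ p ∂μ ≤ 1})
            < isoConst (B '' stdSimplexBody n)) := by
  intro n hn Ω _ μ f p hp hp' hf hb
  exact ⟨LpSub.main_general LpSub.highMoment LpSub.lowMoment
      (LpSub.volumeLower LpSub.gaussMoment) LpSub.gammaUpper LpSub.momentNumeric hn μ f hp hp' hf hb,
    fun h1 h2 => LqQuot.main_general Vale.Agent.P248.LpMahler.lewis LqQuot.momentLow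
      LqQuot.fourthMoment LqQuot.polarVolume LqQuot.quotNumeric hn μ f h1 h2 hf hb⟩

end Vale.Agent.Results.P254.LpSubspacesQuotients
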